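import Vale.Agent.P144C.T.Tip

/-!
Sign changes at corners: the marks and the boundary condition of the dug set.
-/

namespace Vale.Agent.P144C

open Finset Vale.Agent.P144Z GeoA IConv

theorem MkZ2.congr {Λ Λ' : Finset (ℤ × ℤ)} {N r : ℕ} {x : ℤ × ℤ} {e : Fin 4} {ν : ℂ}
    (h : MkZ2 Λ N r x e ν) (H : ∀ v, zd v x ≤ r + 2 → (v ∈ Λ' ↔ v ∈ Λ)) : MkZ2 Λ' N r x e ν := by
  have k : ∀ a, x - cn a ∈ Λ' ↔ x - cn a ∈ Λ := fun a => H _ ((zd_sub_cn x a).trans (by omega))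
  obtain ⟨S, h1, h2⟩ := h.cone
  obtain ⟨Hs, Vs, h3, h4⟩ := h.tr
  refine ⟨h.nrm, ⟨S, h1, fun v hv => (H _ (by rw [zd_add_left]; omega)).trans (h2 v hv)⟩,
    ⟨mt (k _).1 h.rem.1, mt (k _).1 h.rem.2⟩, h.touch.imp fun a => (k a).2, Hs, Vs,
    fun v hv ⟨f, a1, a2⟩ ⟨f', a3, a4⟩ => ?_, h4⟩
  have b1 := zd_tri f v x
  have b2 := zd_tri f' v x
  exact h3 v hv ⟨f, (H f (by omega)).1 a1, a2⟩ ⟨f', mt (H f' (by omega)).2 a3, a4⟩

theorem digM {Λ P : Finset (ℤ × ℤ)} {c : ℤ × ℤ → ℤ × ℤ} {t r ρ r' N R₀ K k : ℕ}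
    {b b' s : ℤ × ℤ → Bool} {x : Fin k → ℤ × ℤ} {e : Fin k → Fin 4} {ν : Fin k → ℂ}
    (sep : ∀ p ∈ P, ∀ p' ∈ P, p ≠ p' → r < zd p p') (hc : ∀ p, 2 * zd (c p) p ≤ t)
    (hs : ∀ p ∈ P, ∀ v, zd v p ≤ ρ → v ∉ Λ → b v = s p) (far : ∀ p ∈ P, ∀ i, ρ + K < zd (x i) p)
    (mg : MkG2 Λ N r' x e ν) (mb : MkB Λ b b' R₀ K x e) (h1 : r' + 2 * t + 4 ≤ ρ)
    (h2 : ρ + 2 * t ≤ r) : ∃ b₁ b₂ : ℤ × ℤ → Bool, (∀ v, v ∉ Λ → b₁ v = b v) ∧
      (∀ p ∈ P.image c, ∀ v, zd v p ≤ r' → v ∉ dig Λ (P.image c) t → b₁ v = b₁ p) ∧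
      MkG2 (dig Λ (P.image c) t) N r' x e ν ∧ MkB (dig Λ (P.image c) t) b₁ b₂ R₀ K x e ∧
      ∀ p ∈ P.image c, ∀ i, r' < zd (x i) p := by
  classical
  have uniq : ∀ p ∈ P, ∀ p' ∈ P, ∀ v, zd v p + zd v p' ≤ r → p = p' := fun p hp p' hp' v h => by
    by_contra e
    have := sep p hp p' hp' e
    have := zd_tri p v p'
    rw [zd_comm p v] at this
    omega
  have md : ∀ v, v ∈ dig Λ (P.image c) t ↔ v ∈ Λ ∧ ∀ p ∈ P, t < zd v (c p) := fun v => by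
    rw [mem_dig, forall_mem_image]
  have tr : ∀ v p, zd v p ≤ zd v (c p) + t ∧ zd v (c p) ≤ zd v p + t := fun v p => by
    have h1 := zd_tri v (c p) p
    have h2 := zd_tri v p (c p)
    have h3 := hc p
    rw [zd_comm p] at h2
    omega
  obtain ⟨pat, e1, e3, e2⟩ : ∃ pat : (ℤ × ℤ → Bool) → ℤ × ℤ → Bool,
      (∀ g v, v ∉ Λ → pat g v = g v) ∧ (∀ g g' v, v ∈ Λ → pat g v = pat g' v) ∧
      ∀ g : ℤ × ℤ → Bool, (∀ p ∈ P, ∀ v, zd v p ≤ ρ → v ∉ Λ → g v = s p) →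
        ∀ p ∈ P, ∀ v, zd v p ≤ ρ → v ∉ dig Λ (P.image c) t → pat g v = s p := by
    refine ⟨fun g v => if v ∈ Λ then decide (∃ p ∈ P, zd v (c p) ≤ t ∧ s p = true) else g v,
      fun g v hv => if_neg hv, fun g g' v hv => (if_pos hv).trans (if_pos hv).symm,
      fun g hg p hp v h1 h2 => ?_⟩
    by_cases hv : v ∈ Λ
    · rw [md] at h2
      push Not at h2
      obtain ⟨p', hp', h3⟩ := h2 hv
      obtain rfl := uniq p hp p' hp' v (by have := tr v p'; omega)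
      simp only [if_pos hv]
      rw [Bool.eq_iff_iff, decide_eq_true_iff]
      refine ⟨fun ⟨p', hp', h4, h5⟩ => ?_, fun h => ⟨p, hp, h3, h⟩⟩
      rwa [uniq p hp p' hp' v (by have := tr v p'; omega)]
    · simp only [if_neg hv]
      exact hg p hp v h1 hv
  have hs' : ∀ p ∈ P, ∀ v, zd v p ≤ ρ → v ∉ Λ → b' v = s p := fun p hp v a1 a2 => by
    rw [mb.agree v fun i => ?_, hs p hp v a1 a2]
    have := far p hp i
    have := zd_tri (x i) v p
    rw [zd_comm (x i) v] at this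
    omega
  have out : ∀ v, (∀ p ∈ P, 2 * t < zd v p) → (v ∈ dig Λ (P.image c) t ↔ v ∈ Λ) := fun v hv =>
    (md v).trans (and_iff_left fun p hp => by have := tr v p; have := hv p hp; omega)
  have two : ∀ v a, RemE (dig Λ (P.image c) t) v a →
      (¬ WallE (pat b') v a ∧ ∀ i, v ≠ x i) ∨ (RemE Λ v a ∧ (WallE (pat b') v a ↔ WallE b' v a)) :=
    fun v a hr => by
      by_cases h : ∃ p ∈ P, zd v p < ρ
      · obtain ⟨p, hp, h⟩ := h
        have k : ∀ a, zd (v - cn a) p ≤ ρ := fun a => by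
          have := zd_tri (v - cn a) v p
          have := zd_sub_cn v a
          omega
        refine Or.inl ⟨fun w => w ((e2 b' hs' p hp _ (k _) hr.1).trans
          (e2 b' hs' p hp _ (k _) hr.2).symm), fun i o => ?_⟩
        have := far p hp i
        rw [← o] at this
        omega
      · push Not at h
        have k : ∀ a, v - cn a ∉ dig Λ (P.image c) t → v - cn a ∉ Λ := fun a =>
          mt (out _ fun p hp => by
            have := h p hp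
            have := zd_tri v (v - cn a) p
            have := zd_sub_cn v a
            rw [zd_comm] at this
            omega).2
        refine Or.inr ⟨⟨k _ hr.1, k _ hr.2⟩, ?_⟩
        rw [WallE, WallE, e1 _ _ (k _ hr.1), e1 _ _ (k _ hr.2)]
  refine ⟨pat b, pat b', e1 b, forall_mem_image.2 fun p hp v a1 a2 => ?_,
    ⟨fun i => (mg.mk1 i).congr fun v hv => out v fun p hp => ?_, mg.sep⟩,
    ⟨fun v a a1 a2 => ?_, fun v hv => ?_, fun v a a1 a2 ⟨u, a3, a4⟩ => ?_⟩,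
    forall_mem_image.2 fun p hp i => ?_⟩
  · rw [e2 b hs p hp v (by have := tr v p; omega) a2, e2 b hs p hp (c p) (by have := hc p; omega)
      fun o => by simpa [zd] using ((md _).1 o).2 p hp]
  · have := far p hp i
    have := zd_tri (x i) v p
    rw [zd_comm (x i) v] at this
    omega
  · rcases two v a a2 with ⟨k1, k2⟩ | ⟨k1, k2⟩
    · exact iff_of_false k1 fun ⟨i, o, _⟩ => k2 i o
    · exact k2.trans (mb.wall v a (a1.imp fun _ o => (mem_dig.1 o).1) k1)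
  · by_cases h : v ∈ Λ
    · exact e3 _ _ _ h
    · rw [e1 _ _ h, e1 _ _ h, mb.agree v hv]
  · rcases two v a a1 with ⟨k1, -⟩ | ⟨k1, k2⟩
    · exact absurd a2 k1
    · exact mb.far v a k1 (k2.1 a2) ⟨u, (mem_dig.1 a3).1, a4⟩
  · have := far p hp i
    have := tr (x i) p
    omega

end Vale.Agent.P144C
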