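import Vale.Agent.P144C.L.Conv
import Vale.Agent.P144D.I.U.Geo
import Vale.Agent.P144D.I.Cg.Corr

/-!
Sign changes at corners: the marks are far from the tips, and their boundary layer is thin.
-/

namespace Vale.Agent.P144C

open Finset Vale.Agent.P144Z GeoA B5a2 ICg VBc

theorem cov_epi {S : Set (ℤ × ℤ)} {ν : ℂ} (hν : ‖ν‖ = 1) (h : Epi S ν (1 / 8)) :
    Cov (Lay S) 19 := by
  classical
  rcases row_or_col hν h with h | h
  · refine ⟨fun t => if k : ∃ a, Lay S (a, t) then Icc (k.choose - 9) (k.choose + 9) else ∅,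
      fun _ => ∅, fun t => ⟨?_, by simp⟩, fun v hv => Or.inl ?_⟩
    · beta_reduce
      split_ifs
      · rw [Int.card_Icc]
        omega
      · simp
    · have k : ∃ a, Lay S (a, v.2) := ⟨v.1, hv⟩
      have h1 := h _ _ hv k.choose_spec rfl
      have h2 := h _ _ k.choose_spec hv rfl
      beta_reduce
      rw [dif_pos k, mem_Icc]
      dsimp only at h1 h2
      omega
  · refine ⟨fun _ => ∅,
      fun t => if k : ∃ a, Lay S (t, a) then Icc (k.choose - 9) (k.choose + 9) else ∅,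
      fun t => ⟨by simp, ?_⟩, fun v hv => Or.inr ?_⟩
    · beta_reduce
      split_ifs
      · rw [Int.card_Icc]
        omega
      · simp
    · have k : ∃ a, Lay S (v.1, a) := ⟨v.2, hv⟩
      have h1 := h _ _ hv k.choose_spec rfl
      have h2 := h _ _ k.choose_spec hv rfl
      beta_reduce
      rw [dif_pos k, mem_Icc]
      dsimp only at h1 h2
      omega

theorem trZ_of_cov {Λ : Finset (ℤ × ℤ)} {x : ℤ × ℤ} {r N : ℕ}
    (h : Cov (fun v => zd v x ≤ r ∧ Lay (Λ : Set (ℤ × ℤ)) v) N) : TrZ Λ x r N := by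
  obtain ⟨H, V, h1, h2⟩ := h
  have hb : ∀ v, zd v x ≤ r → v ∈ Icc (x.1 - r) (x.1 + r) ×ˢ Icc (x.2 - r) (x.2 + r) :=
    fun v hv => by
      simp only [zd] at hv
      simp only [mem_product, mem_Icc]
      omega
  refine ⟨(Icc (x.1 - r) (x.1 + r) ×ˢ Icc (x.2 - r) (x.2 + r)).filter fun v => v.1 ∈ H v.2,
    (Icc (x.1 - r) (x.1 + r) ×ˢ Icc (x.2 - r) (x.2 + r)).filter fun v => v.2 ∈ V v.1,
    fun v hv a1 a2 => (h2 v ⟨hv, a1, a2⟩).imp (fun k => mem_filter.2 ⟨hb v hv, k⟩)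
      fun k => mem_filter.2 ⟨hb v hv, k⟩, fun t => le_trans ?_ (h1 t).1,
    fun t => le_trans ?_ (h1 t).2⟩
  · refine card_le_card_of_injOn Prod.fst (fun v hv => ?_) fun v hv w hw e => ?_
    · obtain ⟨a, rfl⟩ := mem_filter.1 (mem_coe.1 hv)
      exact (mem_filter.1 a).2
    · exact Prod.ext e ((mem_filter.1 (mem_coe.1 hv)).2.trans (mem_filter.1 (mem_coe.1 hw)).2.symm)
  · refine card_le_card_of_injOn Prod.snd (fun v hv => ?_) fun v hv w hw e => ?_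
    · obtain ⟨a, rfl⟩ := mem_filter.1 (mem_coe.1 hv)
      exact (mem_filter.1 a).2
    · exact Prod.ext ((mem_filter.1 (mem_coe.1 hv)).2.trans (mem_filter.1 (mem_coe.1 hw)).2.symm) e

theorem epi_shift {S : Set (ℤ × ℤ)} {ν : ℂ} {κ : ℝ} (h : Epi S ν κ) (p : ℤ × ℤ) :
    Epi {v | v - p ∈ S} ν κ := fun u hu v hv => by
  have := h _ hu v hv
  rwa [sub_add_eq_add_sub] at this

theorem trZ_two {Λ : Finset (ℤ × ℤ)} {p : ℤ × ℤ} {r : ℕ} {κ : ℝ} {S : Set (ℤ × ℤ)}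
    (hκ : κ ≤ 1 / 8) (hS : TwoZ κ S) (h : ∀ v, zd v 0 ≤ r → (p + v ∈ Λ ↔ v ∈ S)) :
    TrZ Λ p r 50 := by
  obtain ⟨S₁, S₂, ν₁, ν₂, n1, n2, e1, e2, rfl⟩ := hS
  have key : ∀ f, zd f p ≤ r → (f ∈ Λ ↔ f - p ∈ S₁ ∩ S₂) := fun f hf => by
    rw [← h (f - p) (by rwa [IConv.zd_sub_zero]), add_sub_cancel]
  refine trZ_of_cov ((((cov_epi n1 (epi_shift (epi_mono e1 hκ) p)).or
    (cov_epi n2 (epi_shift (epi_mono e2 hκ) p))).or (((cov_row (p.2 + r) 1).or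
    (cov_row (p.2 - r) 1)).or ((cov_col (p.1 + r) 1).or (cov_col (p.1 - r) 1)))).mono
      (fun v ⟨hv, ⟨f, a1, a2⟩, f', a3, a4⟩ => ?_) le_rfl)
  by_cases h1 : zd v p + 2 ≤ r
  · have b1 := zd_tri f v p
    have b2 := zd_tri f' v p
    exact Or.inl (lay_inter ⟨⟨f, (key f (by omega)).1 a1, a2⟩, f',
      fun k => a3 ((key f' (by omega)).2 k), a4⟩)
  · simp only [zd] at hv h1
    refine Or.inr ?_
    omega

theorem cone_of {ν : ℂ} (hν : ‖ν‖ = 1) {y : ℤ × ℤ} (h : |ht (Complex.I * ν) y| ≤ ht ν y) :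
    √2 / 2 * len y ≤ ht ν y := by
  have e := B5b.sq_of_norm hν
  have h0 := (abs_nonneg _).trans h
  have h1 := sq_le_sq' (abs_le.1 h).1 (abs_le.1 h).2
  have h2 : ht (Complex.I * ν) y ^ 2 + ht ν y ^ 2 = (y.1 : ℝ) ^ 2 + (y.2 : ℝ) ^ 2 := by
    simp only [ht, Complex.mul_re, Complex.mul_im, Complex.I_re, Complex.I_im]
    linear_combination ((y.1 : ℝ) ^ 2 + (y.2 : ℝ) ^ 2) * e
  rw [len, div_mul_eq_mul_div, ← Real.sqrt_mul zero_le_two, div_le_iff₀ two_pos,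
    Real.sqrt_le_left (by linarith)]
  nlinarith

/-- One of the two walls of a sharp tip is crossed by the cone. -/
theorem sharp {ν ν₁ : ℂ} (hν : ‖ν‖ = 1) (h1 : ‖ν₁‖ = 1)
    (h : ν₁.re * ν.re + ν₁.im * ν.im ≤ 1 / 2) : ∃ s : ℝ, |s| = 4 / 5 ∧
      (ν + s * (Complex.I * ν)).re * ν₁.re + (ν + s * (Complex.I * ν)).im * ν₁.im ≤ -(1 / 10) := by
  have e := B5b.sq_of_norm hν
  have e1 := B5b.sq_of_norm h1
  obtain ⟨a, ha⟩ : ∃ a, a = ν₁.re * ν.re + ν₁.im * ν.im := ⟨_, rfl⟩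
  obtain ⟨b, hb⟩ : ∃ b, b = ν₁.im * ν.re - ν₁.re * ν.im := ⟨_, rfl⟩
  have e2 : a ^ 2 + b ^ 2 = 1 := by
    rw [ha, hb]
    linear_combination (ν₁.re ^ 2 + ν₁.im ^ 2) * e + e1
  have key : ∀ s : ℝ, (ν + s * (Complex.I * ν)).re * ν₁.re +
      (ν + s * (Complex.I * ν)).im * ν₁.im = a + s * b := fun s => by
    simp only [ha, hb, Complex.add_re, Complex.add_im, Complex.mul_re, Complex.mul_im,
      Complex.I_re, Complex.I_im, Complex.ofReal_re, Complex.ofReal_im]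
    ring
  rw [← ha] at h
  by_contra hn
  push Not at hn
  have k1 := hn (4 / 5) (by norm_num [abs_of_pos])
  have k2 := hn (-(4 / 5)) (by norm_num [abs_of_pos])
  rw [key] at k1 k2
  nlinarith

/-- A tip is not a mark. -/
theorem noTip {α : ℝ} (hα : 0 < α) : ∃ K : ℕ, ∀ κ : ℝ, 0 ≤ κ → κ ≤ α ^ 2 / 128 → κ ≤ 1 / 100 →
    ∀ un T₁ T₂ ν₁ ν₂, TipK un T₁ T₂ ν₁ ν₂ α κ → (∃ a ∈ P144Z.Two un T₁ T₂, zd a 0 ≤ K) ∧
      ∀ (S : Set (ℤ × ℤ)) (ν : ℂ) (d : ℤ × ℤ), ‖ν‖ = 1 → Epi S ν (√2 / 2) → TwoZ κ S →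
        ¬ ∀ v, zd v 0 ≤ K → (v ∈ P144Z.Two un T₁ T₂ ↔ d + v ∈ S) := by
  obtain ⟨K₁, h1⟩ := inner hα 0
  obtain ⟨K₂, h2⟩ := no_epi hα K₁
  obtain ⟨l, hl⟩ : ∃ l, l = 50 * K₁ + 150 := ⟨_, rfl⟩
  refine ⟨K₁ + K₂ + 2 * l + 1, fun κ k0 k1 k2 un T₁ T₂ ν₁ ν₂ ⟨h, hs⟩ => ?_⟩
  obtain ⟨a, a1, a2, a3, -⟩ := h1 κ k0 k1 _ _ _ _ h
  refine ⟨⟨a, by cases un; exacts [⟨a1, a2⟩, Or.inl a1], by omega⟩, fun S ν d hν hS hT H => ?_⟩
  cases un
  · have key : ∀ (T : Set (ℤ × ℤ)) (μ : ℂ), ‖μ‖ = 1 → Epi T μ κ → (∃ f, f ∉ T ∧ zd f 0 ≤ 2) →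
        (∀ v ∈ P144Z.Two false T₁ T₂, v ∈ T) → 1 / 2 < μ.re * ν.re + μ.im * ν.im := by
      intro T μ m1 m2 m3 m4
      by_contra hn
      obtain ⟨s, s1, s2⟩ := sharp hν m1 (not_lt.1 hn)
      have n2 : ‖Complex.I * ν‖ = 1 := by rw [norm_mul, Complex.norm_I, hν, one_mul]
      obtain ⟨y, y1, y2⟩ := rnd (ζ := ν + s * (Complex.I * ν)) ((norm_add_le _ _).trans (by
        rw [norm_mul, n2, hν, Complex.norm_real, Real.norm_eq_abs, s1]; norm_num)) l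
      have e := B5b.sq_of_norm hν
      have l0 : (l : ℝ) = 50 * K₁ + 150 := by exact_mod_cast hl
      have K0 : (0 : ℝ) ≤ K₁ := Nat.cast_nonneg _
      have c1 := (abs_le.1 (y2 ν hν)).1
      have c2 := abs_le.1 (y2 _ n2)
      have c3 := (abs_le.1 (y2 μ m1)).2
      have c4 := mul_le_mul_of_nonneg_left s2 (Nat.cast_nonneg (α := ℝ) l)
      have d1 : (ν + s * (Complex.I * ν)).re * ν.re + (ν + s * (Complex.I * ν)).im * ν.im = 1 := by
        simp only [Complex.add_re, Complex.add_im, Complex.mul_re, Complex.mul_im,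
          Complex.I_re, Complex.I_im, Complex.ofReal_re, Complex.ofReal_im]
        linear_combination e
      have d2 : (ν + s * (Complex.I * ν)).re * (Complex.I * ν).re +
          (ν + s * (Complex.I * ν)).im * (Complex.I * ν).im = s := by
        simp only [Complex.add_re, Complex.add_im, Complex.mul_re, Complex.mul_im,
          Complex.I_re, Complex.I_im, Complex.ofReal_re, Complex.ofReal_im]
        linear_combination s * e
      rw [d1] at c1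
      rw [d2] at c2
      have s3 := abs_le.1 s1.le
      have c5 := mul_le_mul_of_nonneg_left s3.1 (Nat.cast_nonneg (α := ℝ) l)
      have c6 := mul_le_mul_of_nonneg_left s3.2 (Nat.cast_nonneg (α := ℝ) l)
      have c7 := mul_le_mul_of_nonneg_left k2 (Nat.cast_nonneg (α := ℝ) l)
      have z1 := hS _ ((H a (by omega)).1 ⟨a1, a2⟩) y
        (cone_of hν (abs_le.2 ⟨by linarith [c2.1], by linarith [c2.2]⟩))
      rw [add_assoc, add_comm a] at z1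
      have z2 := zd_tri (y + a) y 0
      rw [zd_add] at z2
      exact Ge2.out m2 m1 k0 (by linarith) m3 y1 a3 (by push_cast; linarith)
        (m4 _ ((H _ (by omega)).2 z1))
    have b1 := key T₁ ν₁ h.n₁ h.e₁ h.w₁.2 fun v k => k.1
    have b2 := key T₂ ν₂ h.n₂ h.e₂ h.w₂.2 fun v k => k.2
    have b3 := Complex.sq_norm (ν₁ + ν₂)
    have b4 : ‖ν₁ + ν₂‖ ^ 2 ≤ 1 := pow_le_one₀ (norm_nonneg _) (hs rfl)
    have e := B5b.sq_of_norm hν
    simp only [Complex.normSq_apply, Complex.add_re, Complex.add_im] at b3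
    nlinarith [sq_nonneg (ν₁.re + ν₂.re - ν.re), sq_nonneg (ν₁.im + ν₂.im - ν.im)]
  · obtain ⟨a', b1, b2, b3, -⟩ := h1 κ k0 k1 _ _ _ _ (RgZ.tip_compl h)
    obtain ⟨S₁, S₂, μ₁, μ₂, n1, n2, e1, e2, rfl⟩ := hT
    have key : ∀ (S' : Set (ℤ × ℤ)) (μ : ℂ), ‖μ‖ = 1 → Epi S' μ κ → S₁ ∩ S₂ ⊆ S' →
        d + a' ∈ S' := fun S' μ m1 m2 m3 => by
      obtain ⟨u, u1, u2, -, u3⟩ := h2 κ κ k0 le_rfl k1 _ _ _ _ h μ m1 a' b3
      have := m2 _ (m3 ((H u (by omega)).1 u1)) _ u3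
      rwa [add_assoc, add_sub_cancel] at this
    exact Or.elim ((H a' (by omega)).2 ⟨key S₁ μ₁ n1 e1 Set.inter_subset_left,
      key S₂ μ₂ n2 e2 Set.inter_subset_right⟩) b1 b2

end Vale.Agent.P144C
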